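import Mathlib

/-!
# P151: the abstract exploration-tree lemma behind helper505's theorem (TC) (#15545)

`D = {x al, y al, x not<-> y}`, exploration of the cluster of `z`.  At a state of the exploration
(all quantities unnormalised, i.e. measured under the law of the unrevealed edges)

* `l` = P(z al),
* `r X Y` = P(K_x = X, K_y = Y)   (X, Y al, disjoint, not containing z),
* `h Y` = P(K_y = Y, x al, z <-> x),   `g X` = P(K_x = X, y al, z <-> y),
* `e X Y` = P(K_x = X, K_y = Y, z al).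

`Good` is proved at leaves (`Good.leaf`) and is inherited from the two children of an inner node
(`Good.step`); at the root it gives `Good.bound`.
-/

namespace Vale.Agent.P151.H836.TreeTC

open Finset

variable {𝒳 𝒴 : Type*} [Fintype 𝒳] [Fintype 𝒴]

/-- the inductive statement -/
def Good (l : ℝ) (r e : 𝒳 → 𝒴 → ℝ) (h : 𝒴 → ℝ) (g : 𝒳 → ℝ) : Prop :=
  ∃ U W : 𝒳 → 𝒴 → ℝ, (∀ X Y, 0 ≤ U X Y) ∧ (∀ X Y, 0 ≤ W X Y) ∧
    (∀ Y, ∑ X, U X Y ≤ 4 * h Y + h Y * (1 - l) + l / 4 * ∑ X, r X Y) ∧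
    (∀ X, ∑ Y, W X Y ≤ 4 * g X + g X * (1 - l) + l / 4 * ∑ Y, r X Y) ∧
    (∀ X Y, l * r X Y ≤ e X Y + U X Y + W X Y)

theorem Good.leaf {l : ℝ} {r e : 𝒳 → 𝒴 → ℝ} {h : 𝒴 → ℝ} {g : 𝒳 → ℝ}
    (hl0 : 0 ≤ l) (hl1 : l ≤ 1) (hr : ∀ X Y, 0 ≤ r X Y) (hh : ∀ Y, 0 ≤ h Y) (hg : ∀ X, 0 ≤ g X)
    (he : ∀ X Y, l * r X Y ≤ e X Y) : Good l r e h g := by
  refine ⟨fun _ _ => 0, fun _ _ => 0, fun _ _ => le_rfl, fun _ _ => le_rfl, fun Y => ?_,
    fun X => ?_, fun X Y => ?_⟩
  · have h1 : 0 ≤ ∑ X, r X Y := sum_nonneg fun X _ => hr X Y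
    have h2 := hh Y
    simp only [sum_const_zero]
    have : 0 ≤ h Y * (1 - l) := mul_nonneg h2 (by linarith)
    have : 0 ≤ l / 4 * ∑ X, r X Y := mul_nonneg (by linarith) h1
    linarith
  · have h1 : 0 ≤ ∑ Y, r X Y := sum_nonneg fun Y _ => hr X Y
    have h2 := hg X
    simp only [sum_const_zero]
    have : 0 ≤ g X * (1 - l) := mul_nonneg h2 (by linarith)
    have : 0 ≤ l / 4 * ∑ Y, r X Y := mul_nonneg (by linarith) h1
    linarith
  · have := he X Y
    linarith

/-- one column of the step: the `U`-part for a fixed `Y` -/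
theorem column {ι : Type*} [Fintype ι] {p l lo lc : ℝ} {r ro rc : ι → ℝ} {h ho hc : ℝ}
    {inX : ι → Prop} [DecidablePred inX] {inY : Prop} [Decidable inY]
    {Uo Uc : ι → ℝ}
    (hp0 : 0 ≤ p) (hp1 : p ≤ 1) (hl : l = p * lo + (1 - p) * lc)
    (hlco : lc ≤ lo) (hr : ∀ X, r X = p * ro X + (1 - p) * rc X)
    (hrc : ∀ X, 0 ≤ rc X)
    (htouch : ∀ X, (inX X ∨ inY) → ro X = 0)
    (hfree : ∀ X, ¬ inX X → ¬ inY → ro X = rc X)
    (hdisj : ∀ X, inX X → inY → rc X = 0)
    (hh : h = p * ho + (1 - p) * hc) 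
    (hY : inY → ho = 0) (hnY : ¬ inY → (∑ X, if inX X then rc X else 0) ≤ ho - hc)
    (hUo : ∑ X, Uo X ≤ 4 * ho + ho * (1 - lo) + lo / 4 * ∑ X, ro X)
    (hUc : ∑ X, Uc X ≤ 4 * hc + hc * (1 - lc) + lc / 4 * ∑ X, rc X)
    (hns : h ≤ 1 / 4 * ∑ X, r X) :
    ∑ X, ((if inX X then (l - lc) * r X else 0) + (p * Uo X + (1 - p) * Uc X)) ≤
      4 * h + h * (1 - l) + l / 4 * ∑ X, r X := by
  have hq : 0 ≤ 1 - p := by linarith
  have ha : l - lc = p * (lo - lc) := by rw [hl]; ring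
  have ha0 : 0 ≤ l - lc := by rw [ha]; exact mul_nonneg hp0 (by linarith)
  rw [sum_add_distrib, sum_add_distrib, ← mul_sum, ← mul_sum]
  have hm := add_le_add (mul_le_mul_of_nonneg_left hUo hp0) (mul_le_mul_of_nonneg_left hUc hq)
  have hrsum : ∑ X, r X = p * ∑ X, ro X + (1 - p) * ∑ X, rc X := by
    rw [mul_sum, mul_sum, ← sum_add_distrib]; exact sum_congr rfl fun X _ => hr X
  by_cases hy : inY
  · -- all `ro` vanish
    have hro : ∀ X, ro X = 0 := fun X => htouch X (Or.inr hy)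
    have hros : ∑ X, ro X = 0 := sum_eq_zero fun X _ => hro X
    have hfirst : ∑ X, (if inX X then (l - lc) * r X else 0) = 0 := by
      refine sum_eq_zero fun X _ => ?_
      by_cases hx : inX X
      · rw [if_pos hx, hr X, hro X, hdisj X hx hy]; ring
      · rw [if_neg hx]
    rw [hfirst]
    have hho := hY hy
    rw [hros] at hm hrsum
    rw [hho] at hm hh
    have hns' := mul_le_mul_of_nonneg_left hns ha0
    set R := ∑ X, r X
    set Rc := ∑ X, rc X
    have e1 : R = (1 - p) * Rc := by rw [hrsum]; ring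
    have e2 : h = (1 - p) * hc := by rw [hh]; ring
    have e3 : (1 - p) * (4 * hc + hc * (1 - lc) + lc / 4 * Rc)
        = 4 * h + h * (1 - lc) + lc / 4 * R := by rw [e1, e2]; ring
    have e4 : p * (4 * (0:ℝ) + 0 * (1 - lo) + lo / 4 * 0) = 0 := by ring
    rw [e3, e4] at hm
    nlinarith [hm, hns']
  · have hkey := hnY hy
    have hfirst : ∑ X, (if inX X then (l - lc) * r X else 0)
        = (1 - p) * (l - lc) * ∑ X, (if inX X then rc X else 0) := by
      rw [mul_sum]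
      refine sum_congr rfl fun X _ => ?_
      by_cases hx : inX X
      · rw [if_pos hx, if_pos hx, hr X, htouch X (Or.inl hx)]; ring
      · rw [if_neg hx, if_neg hx]; ring
    rw [hfirst]
    -- `l r - mean (l r) ≥ 0`
    have hlr : p * (lo / 4 * ∑ X, ro X) + (1 - p) * (lc / 4 * ∑ X, rc X) ≤ l / 4 * ∑ X, r X := by
      have : ∀ X, p * (lo / 4 * ro X) + (1 - p) * (lc / 4 * rc X) ≤ l / 4 * r X := by
        intro X
        by_cases hx : inX X
        · have h0 := htouch X (Or.inl hx)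
          have h1 : r X = (1 - p) * rc X := by rw [hr X, h0]; ring
          rw [h0, h1]
          have : 0 ≤ (l - lc) * ((1 - p) * rc X) := mul_nonneg ha0 (mul_nonneg hq (hrc X))
          nlinarith [this]
        · have h0 := hfree X hx hy
          have h1 : r X = rc X := by rw [hr X, h0]; ring
          rw [h0, h1, hl]
          apply le_of_eq; ring
      have h2 := sum_le_sum fun X (_ : X ∈ (univ : Finset ι)) => this X
      rw [sum_add_distrib] at h2
      simp only [← mul_sum] at h2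
      exact h2
    have hprod : (1 - p) * (l - lc) * (∑ X, if inX X then rc X else 0)
        ≤ (1 - p) * (l - lc) * (ho - hc) :=
      mul_le_mul_of_nonneg_left hkey (mul_nonneg hq ha0)
    have hid : p * (ho * (1 - lo)) + (1 - p) * (hc * (1 - lc)) + (1 - p) * (l - lc) * (ho - hc)
        = h * (1 - l) := by
      rw [ha, hh, hl]; ring
    have h4 : p * (4 * ho) + (1 - p) * (4 * hc) = 4 * h := by rw [hh]; ring
    nlinarith [hm, hlr, hprod, hid, h4]

theorem Good.step {p l lo lc : ℝ} {r ro rc e eo ec : 𝒳 → 𝒴 → ℝ} {h ho hc : 𝒴 → ℝ}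
    {g go gc : 𝒳 → ℝ} (inX : 𝒳 → Prop) (inY : 𝒴 → Prop)
    (hp0 : 0 ≤ p) (hp1 : p ≤ 1) (hl : l = p * lo + (1 - p) * lc)
    (hlco : lc ≤ lo) (hl0 : 0 ≤ l) (hl1 : l ≤ 1)
    (hr : ∀ X Y, r X Y = p * ro X Y + (1 - p) * rc X Y)
    (hr0 : ∀ X Y, 0 ≤ r X Y) (hrc : ∀ X Y, 0 ≤ rc X Y)
    (htouch : ∀ X Y, (inX X ∨ inY Y) → ro X Y = 0)
    (hfree : ∀ X Y, ¬ inX X → ¬ inY Y → ro X Y = rc X Y)
    (hdisj : ∀ X Y, inX X → inY Y → rc X Y = 0)
    (hh : ∀ Y, h Y = p * ho Y + (1 - p) * hc Y) (hh0 : ∀ Y, 0 ≤ h Y)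
    (hY : ∀ Y, inY Y → ho Y = 0)
    (hnY : ∀ Y, ¬ inY Y → (∑ X, by classical exact if inX X then rc X Y else 0) ≤ ho Y - hc Y)
    (hg : ∀ X, g X = p * go X + (1 - p) * gc X) (hg0 : ∀ X, 0 ≤ g X)
    (hX : ∀ X, inX X → go X = 0)
    (hnX : ∀ X, ¬ inX X → (∑ Y, by classical exact if inY Y then rc X Y else 0) ≤ go X - gc X)
    (he : ∀ X Y, p * eo X Y + (1 - p) * ec X Y ≤ e X Y) (he0 : ∀ X Y, 0 ≤ e X Y)
    (Go : Good lo ro eo ho go) (Gc : Good lc rc ec hc gc) : Good l r e h g := by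
  classical
  obtain ⟨Uo, Wo, hUo0, hWo0, hUo, hWo, hEo⟩ := Go
  obtain ⟨Uc, Wc, hUc0, hWc0, hUc, hWc, hEc⟩ := Gc
  have hq : 0 ≤ 1 - p := by linarith
  have ha : l - lc = p * (lo - lc) := by rw [hl]; ring
  have ha0 : 0 ≤ l - lc := by rw [ha]; exact mul_nonneg hp0 (by linarith)
  let U : 𝒳 → 𝒴 → ℝ := fun X Y =>
    if 1 / 4 * ∑ X', r X' Y < h Y then r X Y
    else (if inX X then (l - lc) * r X Y else 0) + (p * Uo X Y + (1 - p) * Uc X Y)
  let W : 𝒳 → 𝒴 → ℝ := fun X Y =>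
    if 1 / 4 * ∑ Y', r X Y' < g X then r X Y
    else (if inY Y then (l - lc) * r X Y else 0) + (p * Wo X Y + (1 - p) * Wc X Y)
  have mean0 : ∀ {a b : ℝ}, 0 ≤ a → 0 ≤ b → 0 ≤ p * a + (1 - p) * b := fun h1 h2 =>
    add_nonneg (mul_nonneg hp0 h1) (mul_nonneg hq h2)
  have ite0 : ∀ (c : Prop) [Decidable c] (X : 𝒳) (Y : 𝒴),
      0 ≤ (if c then (l - lc) * r X Y else 0) := by
    intro c _ X Y
    split_ifs
    · exact mul_nonneg ha0 (hr0 X Y)
    · exact le_rfl
  have hU0 : ∀ X Y, 0 ≤ U X Y := by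
    intro X Y
    simp only [U]
    split_ifs with h1 h2
    · exact hr0 X Y
    · exact add_nonneg (mul_nonneg ha0 (hr0 X Y)) (mean0 (hUo0 X Y) (hUc0 X Y))
    · exact add_nonneg le_rfl (mean0 (hUo0 X Y) (hUc0 X Y))
  have hW0 : ∀ X Y, 0 ≤ W X Y := by
    intro X Y
    simp only [W]
    split_ifs with h1 h2
    · exact hr0 X Y
    · exact add_nonneg (mul_nonneg ha0 (hr0 X Y)) (mean0 (hWo0 X Y) (hWc0 X Y))
    · exact add_nonneg le_rfl (mean0 (hWo0 X Y) (hWc0 X Y))
  refine ⟨U, W, hU0, hW0, fun Y => ?_, fun X => ?_, fun X Y => ?_⟩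
  · by_cases hs : 1 / 4 * ∑ X', r X' Y < h Y
    · have : ∑ X, U X Y = ∑ X, r X Y := sum_congr rfl fun X _ => by simp only [U]; rw [if_pos hs]
      rw [this]
      have h1 : 0 ≤ h Y * (1 - l) := mul_nonneg (hh0 Y) (by linarith)
      have h2 : 0 ≤ l / 4 * ∑ X, r X Y :=
        mul_nonneg (by linarith) (sum_nonneg fun X _ => hr0 X Y)
      linarith
    · have : ∑ X, U X Y = ∑ X, ((if inX X then (l - lc) * r X Y else 0)
          + (p * Uo X Y + (1 - p) * Uc X Y)) :=
        sum_congr rfl fun X _ => by simp only [U]; rw [if_neg hs]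
      rw [this]
      exact column (r := fun X => r X Y) (ro := fun X => ro X Y) (rc := fun X => rc X Y)
        (inX := inX) (inY := inY Y) (Uo := fun X => Uo X Y) (Uc := fun X => Uc X Y)
        hp0 hp1 hl hlco (fun X => hr X Y) (fun X => hrc X Y) (fun X => htouch X Y)
        (fun X => hfree X Y) (fun X => hdisj X Y) (hh Y) (hY Y)
        (fun hn => by convert hnY Y hn) (hUo Y) (hUc Y) (not_lt.mp hs)
  · by_cases hs : 1 / 4 * ∑ Y', r X Y' < g X
    · have : ∑ Y, W X Y = ∑ Y, r X Y := sum_congr rfl fun Y _ => by simp only [W]; rw [if_pos hs]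
      rw [this]
      have h1 : 0 ≤ g X * (1 - l) := mul_nonneg (hg0 X) (by linarith)
      have h2 : 0 ≤ l / 4 * ∑ Y, r X Y :=
        mul_nonneg (by linarith) (sum_nonneg fun Y _ => hr0 X Y)
      linarith
    · have : ∑ Y, W X Y = ∑ Y, ((if inY Y then (l - lc) * r X Y else 0)
          + (p * Wo X Y + (1 - p) * Wc X Y)) :=
        sum_congr rfl fun Y _ => by simp only [W]; rw [if_neg hs]
      rw [this]
      exact column (r := fun Y => r X Y) (ro := fun Y => ro X Y) (rc := fun Y => rc X Y)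
        (inX := inY) (inY := inX X) (Uo := fun Y => Wo X Y) (Uc := fun Y => Wc X Y)
        hp0 hp1 hl hlco (fun Y => hr X Y) (fun Y => hrc X Y) (fun Y hc => htouch X Y hc.symm)
        (fun Y h1 h2 => hfree X Y h2 h1) (fun Y h1 h2 => hdisj X Y h2 h1) (hg X) (hX X)
        (fun hn => by convert hnX X hn) (hWo X) (hWc X) (not_lt.mp hs)
  · by_cases hs : 1 / 4 * ∑ X', r X' Y < h Y
    · have hU : U X Y = r X Y := by simp only [U]; rw [if_pos hs]
      have h1 : l * r X Y ≤ r X Y := by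
        have := mul_le_mul_of_nonneg_right hl1 (hr0 X Y); linarith
      have := hW0 X Y
      have := he0 X Y
      rw [hU]; linarith
    · by_cases ht : 1 / 4 * ∑ Y', r X Y' < g X
      · have hW : W X Y = r X Y := by simp only [W]; rw [if_pos ht]
        have h1 : l * r X Y ≤ r X Y := by
          have := mul_le_mul_of_nonneg_right hl1 (hr0 X Y); linarith
        have := hU0 X Y
        have := he0 X Y
        rw [hW]; linarith
      · have hU : U X Y = (if inX X then (l - lc) * r X Y else 0)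
            + (p * Uo X Y + (1 - p) * Uc X Y) := by simp only [U]; rw [if_neg hs]
        have hW : W X Y = (if inY Y then (l - lc) * r X Y else 0)
            + (p * Wo X Y + (1 - p) * Wc X Y) := by simp only [W]; rw [if_neg ht]
        have hEo' := mul_le_mul_of_nonneg_left (hEo X Y) hp0
        have hEc' := mul_le_mul_of_nonneg_left (hEc X Y) hq
        have he' := he X Y
        have hmain : l * r X Y ≤ p * (lo * ro X Y) + (1 - p) * (lc * rc X Y)
            + (if inX X then (l - lc) * r X Y else 0)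
            + (if inY Y then (l - lc) * r X Y else 0) := by
          by_cases hx : inX X
          · have h0 := htouch X Y (Or.inl hx)
            have h1 : r X Y = (1 - p) * rc X Y := by rw [hr X Y, h0]; ring
            rw [if_pos hx, h0]
            have h2 := ite0 (inY Y) X Y
            have h3 : (1 - p) * (lc * rc X Y) = lc * r X Y := by rw [h1]; ring
            rw [h3]
            nlinarith [h2]
          · by_cases hy : inY Y
            · have h0 := htouch X Y (Or.inr hy)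
              have h1 : r X Y = (1 - p) * rc X Y := by rw [hr X Y, h0]; ring
              rw [if_neg hx, if_pos hy, h0]
              have h3 : (1 - p) * (lc * rc X Y) = lc * r X Y := by rw [h1]; ring
              rw [h3]
              apply le_of_eq; ring
            · have h0 := hfree X Y hx hy
              have h1 : r X Y = rc X Y := by rw [hr X Y, h0]; ring
              rw [if_neg hx, if_neg hy, h0, h1, hl]
              apply le_of_eq; ring
        rw [hU, hW]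
        linarith [hmain, hEo', hEc', he']

/-- The bound at the root: `P(R) l ≤ 2 P(R, z al) + 10 (P(A) + P(B))`. -/
theorem Good.bound {l : ℝ} {r e : 𝒳 → 𝒴 → ℝ} {h : 𝒴 → ℝ} {g : 𝒳 → ℝ}
    (hl0 : 0 ≤ l) (hh : ∀ Y, 0 ≤ h Y) (hg : ∀ X, 0 ≤ g X) (G : Good l r e h g) :
    l * (∑ X, ∑ Y, r X Y) ≤ 2 * (∑ X, ∑ Y, e X Y) + 10 * (∑ Y, h Y + ∑ X, g X) := by
  obtain ⟨U, W, -, -, hU, hW, hE⟩ := G
  have h1 : l * (∑ X, ∑ Y, r X Y) ≤ (∑ X, ∑ Y, e X Y) + (∑ X, ∑ Y, U X Y) + ∑ X, ∑ Y, W X Y := by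
    rw [mul_sum, ← sum_add_distrib, ← sum_add_distrib]
    refine sum_le_sum fun X _ => ?_
    rw [mul_sum, ← sum_add_distrib, ← sum_add_distrib]
    exact sum_le_sum fun Y _ => hE X Y
  have h2 : ∑ X, ∑ Y, U X Y ≤ 5 * (∑ Y, h Y) + l / 4 * ∑ X, ∑ Y, r X Y := by
    rw [sum_comm, mul_sum, sum_comm (f := fun X Y => r X Y), mul_sum, ← sum_add_distrib]
    refine sum_le_sum fun Y _ => (hU Y).trans ?_
    nlinarith [mul_nonneg (hh Y) hl0]
  have h3 : ∑ X, ∑ Y, W X Y ≤ 5 * (∑ X, g X) + l / 4 * ∑ X, ∑ Y, r X Y := by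
    rw [mul_sum, mul_sum, ← sum_add_distrib]
    refine sum_le_sum fun X _ => (hW X).trans ?_
    nlinarith [mul_nonneg (hg X) hl0]
  linarith

end Vale.Agent.P151.H836.TreeTC
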